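import Vale.Agent.P068.Zfc.Counterexample

namespace Vale.Agent.Results.P068.Disproof

open Set Matroid Vale.Agent.P068

theorem result :
    (∃ (κ β γ : Type) (_ : Countable κ) (_ : Countable β) (F : κ → Matroid β)
        (N : Matroid (Σ _ : κ, β)),
      (∀ k, (F k).E = univ ∧ ∀ Y, (F k).Indep Y ∨ (F k).Spanning Y) ∧
      (N.E = univ ∧ ∃ f : (Σ _ : κ, β) → γ,
        (∀ x y z, f x = f y → f y = f z → x = y ∨ y = z ∨ x = z) ∧
          ∀ J, N.Indep J ↔ InjOn f J) ∧
      (Matroid.sigma F).E = N.E ∧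
      ¬ SatisfiesIntersection (Matroid.sigma F) N ∧
      ¬ HasPackingCovering (Matroid.sigma F).E ![Matroid.sigma F, N✶]) ∧
    ¬ (∀ (α : Type) (M N : Matroid α), M.E = N.E → SatisfiesIntersection M N) ∧
    ¬ (∀ (α ι : Type) (E : Set α) (M : ι → Matroid α), (∀ i, (M i).E = E) →
        HasPackingCovering E M) := by
  obtain ⟨F, N, hF, hN, hE, hSI, hPC⟩ := Zfc.exists_counterexample
  refine ⟨⟨_, _, _, inferInstance, inferInstance, F, N, hF, hN, hE, hSI, hPC⟩,
    fun h => hSI (h _ _ N hE), fun h => ?_⟩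
  refine hPC (h _ _ (Matroid.sigma F).E ![Matroid.sigma F, N✶] fun i => ?_)
  fin_cases i
  · rfl
  · exact hE.symm

end Vale.Agent.Results.P068.Disproof
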