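import Vale.Agent.P068.Family

namespace Vale.Agent.Results.P068.FiniteDefect

open Set Matroid Vale.Agent.P068

universe u v

theorem result :
    (∀ (α : Type u) (M N : Matroid α), M.E = N.E →
      (∀ J F : Set α, M.Indep J → N.Indep J → F.Finite → M.Spanning (J ∪ F) →
          SatisfiesIntersection M N) ∧
      ((M.RankFinite ∨ M✶.RankFinite ∨ N.RankFinite ∨ N✶.RankFinite) →
          SatisfiesIntersection M N)) ∧
    (∀ (α : Type u) (ι : Type v) (E : Set α) (M : ι → Matroid α), (∀ i, (M i).E = E) →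
      (∀ I : ι → Set α, (∀ i, (M i).Indep (I i)) → (∀ i j, i ≠ j → Disjoint (I i) (I j)) →
          (E \ ⋃ i, I i).Finite → HasPackingCovering E M) ∧
      (∀ I F : ι → Set α, (∀ i, (M i).Indep (I i)) → (∀ i j, i ≠ j → Disjoint (I i) (I j)) →
          (∀ i, (F i).Finite) → {i | (F i).Nonempty}.Finite →
          (∀ i, (M i).Spanning (I i ∪ F i)) → HasPackingCovering E M) ∧
      ((∃ i, (M i)✶.RankFinite) → HasPackingCovering E M) ∧
      (Finite ι → ∀ i₀ : ι, (∀ i, i ≠ i₀ → (M i).RankFinite) → HasPackingCovering E M)) :=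
  ⟨fun _ _ _ hE => ⟨intersection_of_finite_defect hE, intersection_of_rankFinite hE⟩,
    fun _ _ _ _ hE => ⟨fun _ h1 h2 h3 => packingCovering_of_almost_covering hE h1 h3 h2,
      fun _ _ h1 h2 h3 h4 h5 => packingCovering_of_almost_packing hE h1 h2 h3 h4 h5,
      fun h => packingCovering_of_finite_corank_member hE h,
      fun hfin i₀ h => @packingCovering_of_finite_rank_others _ _ hfin _ _ hE i₀ h⟩⟩

end Vale.Agent.Results.P068.FiniteDefect
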